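import Vale.Agent.P112.Mode.Main

/-!
P112: Stein's bound for truncated Hilbert transforms along Lipschitz fields, on each angular mode.
-/

open MeasureTheory Filter
open scoped Topology ENNReal NNReal

namespace Vale.Agent.Results.P112.AngularModes

open Vale.Agent.P112.Mode

theorem result : ∃ C : ℝ≥0, ∀ v : ℂ → ℂ, (∀ x, ‖v x‖ = 1) → LipschitzWith 1 v →
    ∀ (m : ℤ) (f : ℂ → ℂ), Continuous f → (∀ w x : ℂ, ‖w‖ = 1 → f (w * x) = w ^ m * f x) →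
    (∀ ε : ℝ, 0 < ε → ε ≤ 1 / 16 → ∫⁻ x, ‖truncHilbert v ε (1 / 16) f x‖ₑ ^ 2 ≤
        ENNReal.ofReal ((1 + |(m : ℝ)|) ^ 2) * C * ∫⁻ x, ‖f x‖ₑ ^ 2) ∧
    ∀ Hf : ℂ → ℂ, (∀ᵐ x, Tendsto (fun ε => truncHilbert v ε (1 / 16) f x) (𝓝[>] 0) (𝓝 (Hf x))) →
      ∫⁻ x, ‖Hf x‖ₑ ^ 2 ≤ ENNReal.ofReal ((1 + |(m : ℝ)|) ^ 2) * C * ∫⁻ x, ‖f x‖ₑ ^ 2 :=
  mode_bound_limit

end Vale.Agent.Results.P112.AngularModes
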